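import Vale.Agent.P272.B4

/-! P270: the Kodaira map of a general line bundle, from the model back to the statement. -/

open Set Filter Topology
open scoped Manifold ContDiff

noncomputable section

namespace Vale.Agent.P270

open Vale.Agent.P271 Vale.Agent.P271.Stmt Vale.Agent.P272

variable {n : ℕ} {X : Type} [TopologicalSpace X] [ChartedSpace (Fin n → ℂ) X]
  [IsManifold 𝓘(ℂ, Fin n → ℂ) ω X] {L L' : Cocycle X}

theorem lb_canonical : IsLineBundle n (canonical n X) where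
  isOpen := fun a : X => (chartAt (Fin n → ℂ) a).open_source
  cover p := ⟨p, mem_chart_source _ p⟩
  hol := fun a b : X => hol_of_chart fun _ hp =>
    ⟨a, hp.1, BrP_analyticAt_canonical (n := n) a b a hp.1 hp.2 hp.1⟩
  ne := fun (a b : X) _ hp => canonical_ne a b hp.1 hp.2
  cocycle := fun (a b c : X) _ hp => canonical_cocycle a b c hp.1.1 hp.1.2 hp.2

omit [IsManifold 𝓘(ℂ, Fin n → ℂ) ω X] in
theorem lb_tensor (hL : IsLineBundle n L) (hL' : IsLineBundle n L') :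
    IsLineBundle n (tensor L L') where
  isOpen a := (hL.isOpen a.1).inter (hL'.isOpen a.2)
  cover p := by
    obtain ⟨i, hi⟩ := hL.cover p
    obtain ⟨j, hj⟩ := hL'.cover p
    exact ⟨(i, j), hi, hj⟩
  hol a b := MDifferentiableOn.mul
    (MDifferentiableOn.mono (hL.hol a.1 b.1) fun _ h => ⟨h.1.1, h.2.1⟩)
    (MDifferentiableOn.mono (hL'.hol a.2 b.2) fun _ h => ⟨h.1.2, h.2.2⟩)
  ne a b p hp := mul_ne_zero (hL.ne a.1 b.1 p ⟨hp.1.1, hp.2.1⟩) (hL'.ne a.2 b.2 p ⟨hp.1.2, hp.2.2⟩)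
  cocycle a b c p hp := by
    change L.g a.1 b.1 p * L'.g a.2 b.2 p * (L.g b.1 c.1 p * L'.g b.2 c.2 p) =
      L.g a.1 c.1 p * L'.g a.2 c.2 p
    rw [← hL.cocycle a.1 b.1 c.1 p ⟨⟨hp.1.1.1, hp.1.2.1⟩, hp.2.1⟩,
      ← hL'.cocycle a.2 b.2 c.2 p ⟨⟨hp.1.1.2, hp.1.2.2⟩, hp.2.2⟩]
    ring

omit [IsManifold 𝓘(ℂ, Fin n → ℂ) ω X] in
theorem k_rel [MeasurableSpace X] (M : Model n X) {q : M.ι → X} {i : M.ι → L.ι}
    (h : Adapted M.toAtl L q i) (a b : M.ι) {p : X} (ha : p ∈ (M.e a).source)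
    (hb : p ∈ (M.e b).source) : M.k a p = (canonical n X).g (q a) (q b) p * M.k b p := by
  have h1 := M.k_tr a b (M.e a p) ⟨(M.e a).map_source ha, by
    change (M.e a).symm (M.e a p) ∈ (M.e b).source
    rwa [(M.e a).left_inv ha]⟩
  rw [(M.e a).left_inv ha] at h1
  have e : M.toAtl.tr a b = chartAt (Fin n → ℂ) (q b) ∘ (chartAt (Fin n → ℂ) (q a)).symm := by
    funext z
    unfold Atl.tr
    rw [h.coe_symm a, h.coe b]
    rfl
  rw [h1, e, h.coe a]
  rfl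

theorem very_ample {A : Atl n X} {q : A.ι → X} {i : A.ι → L.ι} (h : Adapted A L q i)
    (hL : IsLineBundle n L) {v : A.ι → X → ℂ} (hv : A.IsGauge v)
    (hk : ∀ a b, ∀ p ∈ (A.e a).source, p ∈ (A.e b).source → v a p = L.g (i a) (i b) p * v b p)
    {m N : ℕ} {s : Fin N → X → ℂ} (hs : A.Imm (v ^ m) s)
    (hsep : ∀ p p', p ≠ p' → ∃ k l, s k p * s l p' ≠ s l p * s k p') :
    VeryAmple n (power L m) := by
  choose c hc using A.cover
  have hQ : ∀ a, ∀ p ∈ (A.e a).source, p ∈ (chartAt (Fin n → ℂ) (q a)).source :=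
    fun a p hp => (h.sub a hp).1
  have hU : ∀ a, ∀ p ∈ (A.e a).source, p ∈ L.U (i a) := fun a p hp => (h.sub a hp).2
  set u : L.ι → X → ℂ := fun j p => (L.g j (i (c p)) p * v (c p) p) ^ m with hu
  have hu0 : ∀ j, ∀ p ∈ L.U j, u j p ≠ 0 := fun j p hp =>
    pow_ne_zero _ (mul_ne_zero (hL.ne _ _ p ⟨hp, hU _ p (hc p)⟩) (hv.ne _ p (hc p)))
  set t : Fin N → L.ι → X → ℂ := fun k j p => u j p * s k p with ht
  have hloc : ∀ k j a, ∀ p ∈ L.U j, p ∈ (A.e a).source →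
      t k j p = L.g j (i a) p ^ m * ((v ^ m) a p * s k p) := by
    intro k j a p hp ha
    simp only [ht, hu, Pi.pow_apply]
    rw [hk a (c p) p ha (hc p), ← hL.cocycle j (i a) (i (c p)) p ⟨⟨hp, hU a p ha⟩, hU _ p (hc p)⟩]
    ring
  have hev : ∀ k j, ∀ p ∈ L.U j,
      t k j ∘ (chartAt (Fin n → ℂ) (q (c p))).symm =ᶠ[𝓝 (chartAt (Fin n → ℂ) (q (c p)) p)]
        fun w => (L.g j (i (c p)) ∘ (chartAt (Fin n → ℂ) (q (c p))).symm) w ^ m *
          A.loc (c p) (fun p' => (v ^ m) (c p) p' * s k p') w := by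
    intro k j p hp
    have h4 := (chartAt (Fin n → ℂ) (q (c p))).continuousAt_symm
      ((chartAt (Fin n → ℂ) (q (c p))).map_source (hQ _ p (hc p)))
    rw [ContinuousAt, (chartAt (Fin n → ℂ) (q (c p))).left_inv (hQ _ p (hc p))] at h4
    filter_upwards [h4.eventually ((hL.isOpen j).mem_nhds hp),
      h4.eventually ((A.e (c p)).open_source.mem_nhds (hc p))] with w hw1 hw2
    rw [BrP_loc h]
    exact hloc k j (c p) _ hw1 hw2
  have hG : ∀ j, ∀ p ∈ L.U j, AnalyticAt ℂ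
      (fun w => (L.g j (i (c p)) ∘ (chartAt (Fin n → ℂ) (q (c p))).symm) w ^ m)
      (chartAt (Fin n → ℂ) (q (c p)) p) := fun j p hp =>
    (analyticAt_chart ((hL.isOpen j).inter (hL.isOpen (i (c p)))) (hL.hol j (i (c p))) (q (c p))
      ⟨hp, hU _ p (hc p)⟩ (hQ _ p (hc p))).pow m
  have hσ : ∀ k p, AnalyticAt ℂ (A.loc (c p) fun p' => (v ^ m) (c p) p' * s k p')
      (chartAt (Fin n → ℂ) (q (c p)) p) := fun k p => by
    rw [← h.coe (c p)]
    exact hs.mem k (c p) _ ((A.e (c p)).map_source (hc p))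
  have hhol : ∀ k j, Hol n (t k j) (L.U j) := fun k j =>
    hol_of_chart fun p hp =>
      ⟨q (c p), hQ _ p (hc p), ((hG j p hp).mul (hσ k p)).congr (hev k j p hp).symm⟩
  refine ⟨N, t, fun k => ⟨hhol k, fun (j j' : L.ι) p hp => ?_⟩, fun (j : L.ι) p hp => ?_,
    fun (j j' : L.ι) p hp p' hp' hne => ?_, fun (j : L.ι) p hp w hw => ?_⟩
  · change t k j p = L.g j j' p ^ m * t k j' p
    simp only [ht, hu]
    rw [← hL.cocycle j j' (i (c p)) p ⟨hp, hU _ p (hc p)⟩]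
    ring
  · obtain ⟨k, hk⟩ := hs.bpf p
    exact ⟨k, mul_ne_zero (hu0 j p hp) hk⟩
  · obtain ⟨k, l, hkl⟩ := hsep p p' hne
    refine ⟨k, l, fun e => hkl (mul_left_cancel₀ (mul_ne_zero (hu0 j p hp) (hu0 j' p' hp')) ?_)⟩
    simp only [ht] at e
    linear_combination e
  · obtain ⟨ξ, hξ⟩ := B4_surj (canonical_ne (n := n) (q (c p)) p (hQ _ p (hc p))
      (mem_chart_source _ p)) w
    have hξ0 : ξ ≠ 0 := fun e => hw (by rw [← hξ, e, map_zero])
    obtain ⟨k, l, hkl⟩ := hs.imm (c p) _ ((A.e (c p)).map_source (hc p)) ξ hξ0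
    rw [h.coe (c p)] at hkl
    have hd : ∀ k, diff n (t k j) p w = _ := fun k => by
      rw [← hξ, ← BrP_diff (hL.isOpen j) (hhol k j) (q (c p)) hp
        (hQ _ p (hc p)) ξ, (hev k j p hp).fderiv_eq,
        fderiv_fun_mul (hG j p hp).differentiableAt (hσ k p).differentiableAt]
    have he : ∀ k, t k j p = _ := fun k =>
      (congrArg (t k j) ((chartAt (Fin n → ℂ) (q (c p))).left_inv (hQ _ p (hc p))).symm).trans
        (hev k j p hp).eq_of_nhds
    have h0 : (L.g j (i (c p)) ∘ (chartAt (Fin n → ℂ) (q (c p))).symm)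
        (chartAt (Fin n → ℂ) (q (c p)) p) ^ m ≠ 0 := by
      rw [Function.comp_apply, (chartAt (Fin n → ℂ) (q (c p))).left_inv (hQ _ p (hc p))]
      exact pow_ne_zero _ (hL.ne _ _ p ⟨hp, hU _ p (hc p)⟩)
    refine ⟨k, l, fun e => hkl (mul_left_cancel₀ (pow_ne_zero 2 h0) ?_)⟩
    rw [hd, hd, he, he] at e
    simp only [add_apply, smul_apply, smul_eq_mul] at e
    linear_combination e

end Vale.Agent.P270
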