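import Vale.Agent.P270.Stmt
import Vale.Agent.P270.Br
import Vale.Agent.P272.Main

/-! P270: on a hyperbolic compact Kaehler manifold `K + M` is ample for every nef `M`. -/

open Set Filter Topology Matrix
open scoped Manifold ContDiff ComplexOrder

noncomputable section

namespace Vale.Agent.P270

open Vale.Agent.P271 Vale.Agent.P271.Stmt Vale.Agent.P272 Vale.Agent.P270S
open Vale.Agent.P278S (FormField inChart IsKaehler)

variable {n : ℕ} {X : Type} [TopologicalSpace X] [ChartedSpace (Fin n → ℂ) X]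
  [IsManifold 𝓘(ℂ, Fin n → ℂ) ω X] {L : Cocycle X} {h : FormField (Fin n → ℂ) X}

theorem form [CompactSpace X] (hK : IsKaehler h) (hL : IsLineBundle n L) :
    ∃ (A : Atl n X) (q : A.ι → X) (i : A.ι → L.ι) (w : Frm A), Adapted A L q i ∧ Kae A w ∧
      ∀ a, ∀ z ∈ (A.e a).target, ∀ v, Lev (w a) z v = (inChart h (q a) z v v).re := by
  choose φ hφ hev using B3_pot hK
  choose W hW hWo hWm using fun q => eventually_nhds_iff.1 (hev q)
  choose i hi using hL.cover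
  obtain ⟨A, q, hA⟩ := B3_atl (n := n)
    (fun p => ((chartAt (Fin n → ℂ) p).source ∩ chartAt (Fin n → ℂ) p ⁻¹' W p) ∩ L.U (i p))
    (fun p => ((chartAt (Fin n → ℂ) p).isOpen_inter_preimage (hWo p)).inter (hL.isOpen _))
    fun p => ⟨⟨mem_chart_source _ p, hWm p⟩, hi p⟩
  have ht : ∀ a, ∀ z ∈ (A.e a).target, z ∈ (chartAt (Fin n → ℂ) (q a)).target ∧ z ∈ W (q a) := by
    intro a z hz
    have h1 := hA.sub a ((A.e a).map_target hz)
    have h2 : chartAt (Fin n → ℂ) (q a) ((A.e a).symm z) = z := by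
      rw [← hA.coe a, (A.e a).right_inv hz]
    exact ⟨h2 ▸ (chartAt (Fin n → ℂ) (q a)).map_source h1.1, h2 ▸ h1.2.1.2⟩
  have hM : ∀ a, ∀ z ∈ (A.e a).target, ∀ u v,
      star u ⬝ᵥ LM (φ (q a)) z *ᵥ v = inChart h (q a) z u v := by
    intro a z hz u v
    rw [B3_expand]
    congr 2
    ext j k
    exact hW (q a) z (ht a z hz).2 j k
  refine ⟨A, q, fun a => i (q a), fun a => φ (q a),
    ⟨fun a p hp => ⟨(hA.sub a hp).1, (hA.sub a hp).2.2⟩, hA.coe, hA.coe_symm⟩,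
    ⟨⟨fun a => (hφ _).contDiffOn, fun a b z hz => ?_⟩,
    fun a z hz => (posDef_LM_iff (hφ _).contDiffAt).2 fun ξ hξ => ?_⟩, fun a z hz v => ?_⟩
  · have e : A.tr a b = chartAt (Fin n → ℂ) (q b) ∘ (chartAt (Fin n → ℂ) (q a)).symm := by
      funext z
      unfold Atl.tr
      rw [hA.coe_symm a, hA.coe b]
      rfl
    have hb : (chartAt (Fin n → ℂ) (q a)).symm z ∈ (chartAt (Fin n → ℂ) (q b)).source := by
      rw [← hA.coe_symm a]
      exact (hA.sub b hz.2).1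
    ext j k
    have h1 := hM b _ (A.mapsTo_tr a b hz).1 (DM (A.tr a b) z *ᵥ Pi.single j 1)
      (DM (A.tr a b) z *ᵥ Pi.single k 1)
    rw [star_mulVec, ← dotProduct_mulVec, mulVec_mulVec, mulVec_mulVec, DM_mulVec, DM_mulVec, e,
      ← B3_tr (q a) (q b) (ht a z hz.1).1 hb, ← hW (q a) z (ht a z hz.1).2 j k, ← e] at h1
    rw [← h1]
    simp
  · rw [Lev_eq_LM (hφ _).contDiffAt, hM a z hz]
    exact B3_pos hK _ (ht a z hz).1 hξ
  · rw [Lev_eq_LM (hφ _).contDiffAt, hM a z hz]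

omit [IsManifold 𝓘(ℂ, Fin n → ℂ) ω X] in
theorem mem_seen {A : Atl n X} {q : A.ι → X} {i : A.ι → L.ι} (hA : Adapted A L q i) (a : A.ι)
    {z : Cn n} (hz : z ∈ (A.e a).target) : z ∈ seen n (L.U (i a)) (q a) := by
  have h1 := hA.sub a ((A.e a).map_target hz)
  have h2 : chartAt (Fin n → ℂ) (q a) ((A.e a).symm z) = z := by
    rw [← hA.coe a, (A.e a).right_inv hz]
  refine ⟨h2 ▸ (chartAt (Fin n → ℂ) (q a)).map_source h1.1, ?_⟩
  rw [mem_preimage, ← hA.coe_symm a]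
  exact h1.2

theorem gauge {A : Atl n X} {q : A.ι → X} {i : A.ι → L.ι} (hA : Adapted A L q i)
    (hL : IsLineBundle n L) {φ : L.ι → X → ℝ} (hφ : IsMetric n L φ) :
    ∃ u : A.ι → X → ℂ, A.IsGauge u ∧
      (∀ a b, ∀ p ∈ (A.e a).source, p ∈ (A.e b).source → u a p = L.g (i a) (i b) p * u b p) ∧
      ∀ a, ∀ p ∈ (A.e a).source, ‖u a p‖ ^ 2 = Real.exp (φ (i a) p) := by
  choose c hc using A.cover
  have hU : ∀ a, ∀ p ∈ (A.e a).source, p ∈ L.U (i a) := fun a p hp => (hA.sub a hp).2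
  set u : A.ι → X → ℂ := fun a p =>
    L.g (i a) (i (c p)) p * ((Real.exp (φ (i (c p)) p / 2) : ℝ) : ℂ) with hu
  have hne : ∀ a, ∀ p ∈ (A.e a).source, u a p ≠ 0 := fun a p hp =>
    mul_ne_zero (hL.ne _ _ p ⟨hU a p hp, hU _ p (hc p)⟩)
      (Complex.ofReal_ne_zero.2 (Real.exp_pos _).ne')
  have huu : ∀ a b, ∀ p ∈ (A.e a).source, p ∈ (A.e b).source →
      u a p = L.g (i a) (i b) p * u b p := by
    intro a b p ha hb
    simp only [hu]
    rw [← mul_assoc, hL.cocycle (i a) (i b) (i (c p)) p ⟨⟨hU a p ha, hU b p hb⟩, hU _ p (hc p)⟩]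
  have hn : ∀ a, ∀ p ∈ (A.e a).source, ‖u a p‖ ^ 2 = Real.exp (φ (i a) p) := by
    intro a p hp
    have h0 := pow_pos (norm_pos_iff.2 (hL.ne _ _ p ⟨hU a p hp, hU _ p (hc p)⟩)) 2
    simp only [hu]
    rw [hφ.compat (i a) (i (c p)) p ⟨hU a p hp, hU _ p (hc p)⟩, Real.exp_add, Real.exp_log h0,
      norm_mul, mul_pow, Complex.norm_real, Real.norm_of_nonneg (Real.exp_pos _).le,
      ← Real.exp_nat_mul, mul_comm]
    congr 2
    push_cast
    ring
  refine ⟨u, ⟨hne, fun a b z hz => ?_, fun a => ?_⟩, huu, hn⟩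
  · have h1 := BrP_analyticAt hA ((hL.isOpen (i a)).inter (hL.isOpen (i b)))
      (hL.hol (i a) (i b)) a hz.1 ⟨hU a _ ((A.e a).map_target hz.1), hU b _ hz.2⟩
    refine h1.congr ?_
    filter_upwards [(A.isOpen_ov a b).mem_nhds hz] with w hw
    simp only [Atl.loc]
    rw [huu a b _ ((A.e a).map_target hw.1) hw.2, mul_div_cancel_right₀ _ (hne b _ hw.2)]
  · refine ((hφ.smooth (i a) (q a)).mono fun z hz => mem_seen hA a hz).exp.congr fun z hz => ?_
    rw [← BrP_loc hA]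
    exact hn a _ ((A.e a).map_target hz)

theorem main (hn : 1 ≤ n) [T2Space X] [CompactSpace X] [ConnectedSpace X] (hK : IsKaehler h)
    (hB : ∀ f : ℂ → X, MDifferentiable 𝓘(ℂ, ℂ) 𝓘(ℂ, Fin n → ℂ) f → ∃ c, ∀ z, f z = c)
    (hL : IsLineBundle n L) (hN : Nef n h L) : Ample n (tensor (canonical n X) L) := by
  borelize X
  obtain ⟨A, q, i, w, hA, hw, hwh⟩ := form hK hL
  obtain ⟨M, rfl⟩ := exists_model A
  obtain ⟨ψ, hψ, hp⟩ := canonical_pos (M := M) hn hw (B3_hyp hA hB)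
  have hθ : IsF M.toAtl (th M + ddc M.toAtl ψ) := (isF_th M).add (isF_ddc hψ)
  obtain ⟨C, hC, hle, -⟩ := exists_le ⟨hθ, hp⟩ hw.1
  obtain ⟨φ, hφ, hφ'⟩ := hN C⁻¹ (inv_pos.2 hC)
  obtain ⟨u, hu, huu, hun⟩ := gauge hA hL hφ
  have hv := M.k_gauge.mul hu
  have hP : M.Pos (M.k * u) ψ := by
    refine ⟨hψ, fun a z hz ξ hξ => ?_⟩
    have hz' := (M.e a).open_target.mem_nhds hz
    have s1 := hθ.smAt hz
    have s2 := hw.1.smAt hz
    have s3 := ((hφ.smooth (i a) (q a)).mono fun z hz => mem_seen hA a hz).contDiffAt hz'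
    have e : M.wt (M.k * u) ψ a =ᶠ[𝓝 z]
        (th M + ddc M.toAtl ψ) a + φ (i a) ∘ (chartAt (Fin n → ℂ) (q a)).symm := by
      filter_upwards [hz'] with y hy
      have h1 := (M.e a).map_target hy
      rw [← BrP_loc hA]
      simp only [Atl.wt, Atl.loc, th, ddc, Pi.add_apply, Pi.mul_apply]
      rw [norm_mul, mul_pow, Real.log_mul (Api_k_pos M h1).ne'
        (pow_ne_zero 2 (norm_ne_zero_iff.2 (hu.ne a _ h1))), hun a _ h1, Real.log_exp]
      ring
    have h1 := (posDef_LM_iff (((hθ.smul C).sub hw.1).smAt hz)).1 (hle a z hz) ξ hξ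
    have h2 := hφ' (i a) (q a) z (mem_seen hA a hz) ξ
    rw [← hwh a z hz, levi, ← Lev_eq_fderiv s3, Lev_eq_LM s3, Lev_eq_LM s2] at h2
    rw [Lev_eq_LM (((hθ.smul C).sub hw.1).smAt hz), Pi.sub_apply, Pi.smul_apply,
      LM_sub (φ := C • (th M + ddc M.toAtl ψ) a) (s1.const_smul C) s2, LM_smul s1, sub_mulVec, dotProduct_sub, smul_mulVec,
      dotProduct_smul, Complex.sub_re, smul_eq_mul, Complex.re_ofReal_mul] at h1
    rw [Lev_eq_LM ((s1.add s3).congr_of_eventuallyEq e), LM_congr e, LM_add s1 s3, add_mulVec,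
      dotProduct_add, Complex.add_re]
    have h3 := mul_lt_mul_of_pos_left (sub_pos.1 h1) (inv_pos.2 hC)
    rw [inv_mul_cancel_left₀ hC.ne'] at h3
    linarith
  obtain ⟨m, N, s, hm, hs, hsep⟩ :=
    kfin hn hv (fun a x hx => kjet hv hP hx) fun x y hxy => ksep hv hP hxy
  refine ⟨m, hm, very_ample (i := fun a => (q a, i a))
    ⟨fun a p hp => ⟨(hA.sub a hp).1, hA.sub a hp⟩, hA.coe, hA.coe_symm⟩
    (lb_tensor lb_canonical hL) hv (fun a b p ha hb => ?_) hs hsep⟩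
  change M.k a p * u a p = (canonical n X).g (q a) (q b) p * L.g (i a) (i b) p * (M.k b p * u b p)
  rw [k_rel M hA a b ha hb, huu a b p ha hb]
  ring

end Vale.Agent.P270
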