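import Vale.Agent.P271.Stmt
import Vale.Agent.P278.Stmt

/-! P270: smooth Hermitian metrics on line bundles and nef line bundles. -/

open scoped Manifold ContDiff

noncomputable section

namespace Vale.Agent.P270S

open Vale.Agent.P271.Stmt Vale.Agent.P278S

/-- The Levi form `∑ φ_{j \bar k} v j conj (v k)` of a real function, written with real second
derivatives. -/
def levi {n : ℕ} (φ : (Fin n → ℂ) → ℝ) (z v : Fin n → ℂ) : ℝ :=
  (fderiv ℝ (fderiv ℝ φ) z v v +
    fderiv ℝ (fderiv ℝ φ) z (Complex.I • v) (Complex.I • v)) / 4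

variable (n : ℕ) {X : Type} [TopologicalSpace X] [ChartedSpace (Fin n → ℂ) X]

/-- The set `U` seen in the chart at `a`. -/
def seen (U : Set X) (a : X) : Set (Fin n → ℂ) :=
  (chartAt (Fin n → ℂ) a).target ∩ (chartAt (Fin n → ℂ) a).symm ⁻¹' U

/-- A smooth Hermitian metric on `L`: the squared norm of a section is `|s i|² exp (-φ i)` on
`U i`. -/
structure IsMetric (L : Cocycle X) (φ : L.ι → X → ℝ) : Prop where
  smooth : ∀ i a, ContDiffOn ℝ ∞ (φ i ∘ (chartAt (Fin n → ℂ) a).symm) (seen n (L.U i) a)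
  compat : ∀ i j, ∀ p ∈ L.U i ∩ L.U j, φ i p = φ j p + Real.log (‖L.g i j p‖ ^ 2)

/-- `L` is nef: for every `ε > 0` it has a smooth metric with curvature at least `-ε h`. -/
def Nef (h : FormField (Fin n → ℂ) X) (L : Cocycle X) : Prop :=
  ∀ ε : ℝ, 0 < ε → ∃ φ, IsMetric n L φ ∧ ∀ i a, ∀ z ∈ seen n (L.U i) a, ∀ v,
    -(ε * (inChart h a z v v).re) ≤ levi (φ i ∘ (chartAt (Fin n → ℂ) a).symm) z v

end Vale.Agent.P270S
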